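import Vale.Agent.P058.Quad.Main

/-! # Theorem S for lines `AC`, `BD` meeting anywhere (`p`, `q` arbitrary real numbers) -/

namespace Vale.Agent.P058.RU

open Vale.Agent.P058 Vale.Agent.P058.Quad
open scoped BigOperators RealInnerProductSpace

lemma strict_cauchy_schwarz' {n : ℕ} (A B C D O : E n) (r p q : ℝ) (hA : dist A O = r)
    (hB : dist B O = r) (hC : dist C O = r) (hD : dist D O = r) (hpp : p * (1 - p) ≠ 0)
    (hrel : (1 - p) • A + p • C = (1 - q) • B + q • D)
    (hAC : A ≠ C) (hAB : A ≠ B) (hBC : B ≠ C) :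
    ⟪C - A, D - B⟫ ^ 2 < ‖C - A‖ ^ 2 * ‖D - B‖ ^ 2 := by
  have hpow := power_of_point' A B C D O r p q hA hB hC hD hrel
  have hcs : ⟪C - A, D - B⟫ ^ 2 ≤ ‖C - A‖ ^ 2 * ‖D - B‖ ^ 2 := by
    rw [← mul_pow, ← sq_abs]
    exact pow_le_pow_left₀ (abs_nonneg _) (abs_real_inner_le_norm _ _) 2
  refine lt_of_le_of_ne hcs fun heq => ?_
  have hU : 0 < ‖C - A‖ ^ 2 := by
    have : 0 < ‖C - A‖ := norm_pos_iff.2 (sub_ne_zero.2 (Ne.symm hAC))
    positivity
  set u := C - A with hu
  set w := D - B with hw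
  set U := ‖u‖ ^ 2 with hUdef
  set κ : ℝ := ⟪u, w⟫ / U with hκ
  have hS : ⟪u, w⟫ = κ * U := by rw [hκ]; field_simp
  have hWU : ‖w‖ ^ 2 = κ ^ 2 * U := by
    have : U * ‖w‖ ^ 2 = U * (κ ^ 2 * U) := by rw [← heq, hS]; ring
    exact mul_left_cancel₀ hU.ne' this
  have hwu : w = κ • u := by
    have h0 : ‖(-κ) • u + (1 : ℝ) • w‖ ^ 2 = 0 := by
      rw [norm_sq_lin, hS, hWU, ← hUdef]; ring
    have h1 : (-κ) • u + (1 : ℝ) • w = 0 := by
      rw [sq_eq_zero_iff, norm_eq_zero] at h0
      exact h0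
    rw [one_smul, neg_smul, neg_add_eq_zero] at h1
    exact h1.symm
  rw [dist_eq_norm] at hA hB hC hD
  have h1 := inner_comb_sub (A - O) (C - O) p (by rw [hC, hA])
  have h2 := inner_comb_sub (B - O) (D - O) q (by rw [hD, hB])
  have hm : (1 - q) • (B - O) + q • (D - O) = (1 - p) • (A - O) + p • (C - O) := by
    linear_combination (norm := module) (-1 : ℝ) • hrel
  rw [sub_sub_sub_cancel_right, ← hu, ← hUdef] at h1
  rw [sub_sub_sub_cancel_right, ← hw, hm, hWU, hwu, inner_smul_right] at h2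
  rw [hWU] at hpow
  have e1 : p * (1 - p) = q * (1 - q) * κ ^ 2 := by
    have : U * (p * (1 - p)) = U * (q * (1 - q) * κ ^ 2) := by linear_combination hpow
    exact mul_left_cancel₀ hU.ne' this
  have hκ0 : κ ≠ 0 := by
    intro h0
    rw [h0] at e1
    apply hpp
    rw [e1]
    simp
  have e2 : (2 * q - 1) * κ = 2 * p - 1 := by
    have : (κ * U) * ((2 * q - 1) * κ) = (κ * U) * (2 * p - 1) := by
      linear_combination κ * h1 - h2
    exact mul_left_cancel₀ (mul_ne_zero hκ0 hU.ne') this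
  have e3 : κ ^ 2 = 1 := by
    have : (2 * p - 1) ^ 2 = ((2 * q - 1) * κ) ^ 2 := by rw [e2]
    linear_combination (-1 : ℝ) * this - 4 * e1
  obtain ⟨f1, f2, f3, f4, f5, f6⟩ := diff_formulas A B C D p q hrel
  rcases sq_eq_one_iff.1 e3 with hk | hk
  · apply hAB
    have hpq : p = q := by rw [hk] at e2; linarith
    rw [← sub_eq_zero, f1, ← hu, ← hw, hwu, hk, hpq]
    module
  · apply hBC
    have hpq : q = 1 - p := by rw [hk] at e2; linarith
    rw [← sub_eq_zero, f4, ← hu, ← hw, hwu, hk, hpq]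
    module


theorem subtransitive_of_design' {n : ℕ} (A B C D : E n) (p q σ : ℝ) (hqq : q * (1 - q) ≠ 0)
    (hdes : HasDesign p q σ) (hrel : (1 - p) • A + p • C = (1 - q) • B + q • D) (hAC : A ≠ C)
    (hσ : ⟪C - A, D - B⟫ = σ * ‖C - A‖ ^ 2)
    (hW : p * (1 - p) * ‖C - A‖ ^ 2 = q * (1 - q) * ‖D - B‖ ^ 2) :
    IsSubtransitive ({A, B, C, D} : Set (E n)) := by
  classical
  obtain ⟨ι, _, v, a, b, c, d, ha, hb, hc, hd, hrel0, hac, hσ0⟩ := hdes
  have hca : 0 < ‖c - a‖ := norm_pos_iff.2 (sub_ne_zero.2 (Ne.symm hac))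
  set r : ℝ := ‖C - A‖ / ‖c - a‖ with hr
  have hr2 : r ^ 2 * ‖c - a‖ ^ 2 = ‖C - A‖ ^ 2 := by
    rw [hr]; field_simp
  have hrel' : (1 - p) • (r • a) + p • (r • c) = (1 - q) • (r • b) + q • (r • d) := by
    linear_combination (norm := module) r • hrel0
  have hU : ‖r • c - r • a‖ ^ 2 = ‖C - A‖ ^ 2 := by
    rw [← smul_sub, norm_smul, mul_pow, Real.norm_eq_abs, sq_abs, hr2]
  have hS : ⟪r • c - r • a, r • d - r • b⟫ = ⟪C - A, D - B⟫ := by
    rw [← smul_sub, ← smul_sub, inner_smul_left, inner_smul_right, hσ0, hσ, ← hr2]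
    simp only [RCLike.conj_to_real]
    ring
  have hpow := power_of_point (r • a) (r • b) (r • c) (r • d) p q
    (by rw [norm_smul, norm_smul, norm_of_mem_blockSet hb, norm_of_mem_blockSet ha])
    (by rw [norm_smul, norm_smul, norm_of_mem_blockSet hc, norm_of_mem_blockSet ha])
    (by rw [norm_smul, norm_smul, norm_of_mem_blockSet hd, norm_of_mem_blockSet ha]) hrel'
  have hW' : ‖r • d - r • b‖ ^ 2 = ‖D - B‖ ^ 2 := by
    rw [hU, hW] at hpow
    exact (mul_left_cancel₀ hqq hpow).symm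
  obtain ⟨d1, d2, d3, d4, d5, d6⟩ :=
    dist_eq_of_gram A B C D (r • a) (r • b) (r • c) (r • d) p q hrel hrel' hU hW' hS
  set g : E n → EuclideanSpace ℝ ι := fun x =>
    if x = A then r • a else if x = B then r • b else if x = C then r • c else r • d with hg
  have gA : g A = r • a := by simp [hg]
  have gB : g B = r • b := by
    by_cases h : B = A
    · have : dist (r • a) (r • b) = 0 := by rw [d1, h, dist_self]
      simp [hg, h, dist_eq_zero.1 this]
    · simp [hg, h]
  have gC : g C = r • c := by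
    by_cases h : C = A
    · exact absurd h.symm hAC
    · by_cases h' : C = B
      · have : dist (r • b) (r • c) = 0 := by rw [d4, h', dist_self]
        rw [← dist_eq_zero.1 this, h', gB]
      · simp [hg, h, h']
  have gD : g D = r • d := by
    by_cases h : D = A
    · have : dist (r • a) (r • d) = 0 := by rw [d3, h, dist_self]
      rw [← dist_eq_zero.1 this, h, gA]
    · by_cases h' : D = B
      · have : dist (r • b) (r • d) = 0 := by rw [d5, h', dist_self]
        rw [← dist_eq_zero.1 this, h', gB]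
      · by_cases h'' : D = C
        · have : dist (r • c) (r • d) = 0 := by rw [d6, h'', dist_self]
          rw [← dist_eq_zero.1 this, h'', gC]
        · simp [hg, h, h', h'']
  refine subtransitive_of_blockSet _ (r • v) g ?_ ?_
  · rintro x (rfl | rfl | rfl | rfl)
    · rw [gA]; exact smul_mem_blockSet r ha
    · rw [gB]; exact smul_mem_blockSet r hb
    · rw [gC]; exact smul_mem_blockSet r hc
    · rw [gD]; exact smul_mem_blockSet r hd
  · rintro x (rfl | rfl | rfl | rfl) y (rfl | rfl | rfl | rfl) <;>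
      simp only [gA, gB, gC, gD, dist_self, d1, d2, d3, d4, d5, d6,
        dist_comm (r • b) (r • a), dist_comm (r • c) (r • a), dist_comm (r • d) (r • a),
        dist_comm (r • c) (r • b), dist_comm (r • d) (r • b), dist_comm (r • d) (r • c)] <;>
      first | rfl | exact dist_comm _ _


end Vale.Agent.P058.RU
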