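import Vale.Agent.P058.RU.SubA

/-! # Theorem S for lines `AC`, `BD` meeting anywhere: parameters and assembly -/

namespace Vale.Agent.P058.RU

open Vale.Agent.P058 Vale.Agent.P058.Quad
open scoped BigOperators RealInnerProductSpace

theorem exists_params' (p q : ℝ) (hpq : 0 < (p * (1 - p)) * (q * (1 - q))) (ρ : ℚ)
    (hρ : (1 - q) * p = ρ * (q * (1 - p))) (σ : ℝ)
    (hσ : σ ^ 2 * (q * (1 - q)) ^ 2 < (p * (1 - p)) * (q * (1 - q))) :
    ∃ k1 k2 k3 k4 R : ℕ, 0 < k1 ∧ 0 < k2 ∧ 0 < k3 ∧ 0 < k4 ∧ k1 + k2 + k3 + k4 < R ∧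
      (1 - q) * (p * (k2 * k3)) = q * ((1 - p) * (k1 * k4)) ∧
      |σ| ≤ |((p * (k2 * k3) + (1 - p) * (k1 * k4)) * (min (k1 * k2) (k3 * k4) : ℕ) *
        ((R : ℝ) - (k1 + k2 + k3 + k4 : ℕ)) ^ 2) / ((k1 * k2) * ((k3 * k4) * (R : ℝ) ^ 2))| := by
  -- ρ > 0
  have hρpos : (0 : ℝ) < (ρ : ℝ) := by
    by_contra hcon
    have hle : (ρ : ℝ) ≤ 0 := not_lt.mp hcon
    have h1 : (p * (1 - p)) * (q * (1 - q)) = (ρ : ℝ) * (q * (1 - p)) ^ 2 := by
      linear_combination (q * (1 - p)) * hρ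
    have h2 : (ρ : ℝ) * (q * (1 - p)) ^ 2 ≤ 0 := mul_nonpos_of_nonpos_of_nonneg hle (sq_nonneg _)
    linarith
  have hρpos' : 0 < ρ := by exact_mod_cast hρpos
  have hnum : 0 < ρ.num := Rat.num_pos.mpr hρpos'
  obtain ⟨m, hm⟩ : ∃ m : ℕ, ρ.num = (m : ℤ) := ⟨ρ.num.toNat, (Int.toNat_of_nonneg hnum.le).symm⟩
  have hmpos : 0 < m := by
    have : (0 : ℤ) < (m : ℤ) := hm ▸ hnum
    exact_mod_cast this
  set n : ℕ := ρ.den with hn
  have hnpos : 0 < n := ρ.den_pos
  have hρmn : (ρ : ℝ) * n = m := by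
    have h : (ρ : ℚ) * (ρ.den : ℚ) = (ρ.num : ℚ) := Rat.mul_den_eq_num ρ
    have h' : ((ρ * (ρ.den : ℚ) : ℚ) : ℝ) = ((ρ.num : ℚ) : ℝ) := by rw [h]
    rw [hm] at h'
    push_cast at h'
    exact h'
  set Z : ℝ := (p * (1 - p)) * (q * (1 - q)) with hZ
  set η : ℝ := σ ^ 2 * (q * (1 - q)) ^ 2 / Z with hηdef
  have hη : η < 1 := by rw [hηdef, div_lt_one hpq]; exact hσ
  obtain ⟨j, T, R, hj, hT, hjle, hKR, hmain⟩ := exists_jTR η hη m n hmpos hnpos
  refine ⟨j, j * n, n * T, n * T * m, R, hj, Nat.mul_pos hj hnpos, Nat.mul_pos hnpos hT,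
    Nat.mul_pos (Nat.mul_pos hnpos hT) hmpos, hKR, ?_, ?_⟩
  · push_cast
    have : (1 - q) * p * ((j : ℝ) * n * (n * T)) = ((ρ : ℝ) * n) * (q * (1 - p)) * (j * (n * T)) := by
      rw [hρ]; ring
    rw [hρmn] at this
    linarith
  · have hmin : min (j * (j * n)) (n * T * (n * T * m)) = j * (j * n) := by
      apply min_eq_left
      calc j * (j * n) = (j * j) * n := by ring
        _ ≤ (n * m * (T * T)) * n := Nat.mul_le_mul_right _ hjle
        _ = n * T * (n * T * m) := by ring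
    rw [hmin]
    set K : ℕ := j + j * n + n * T + n * T * m with hK
    have hD : (0 : ℝ) < (R : ℝ) - K := by
      have : (K : ℝ) < R := by exact_mod_cast hKR
      linarith
    set D : ℝ := (R : ℝ) - K with hDdef
    have hJ : (0 : ℝ) < j := by exact_mod_cast hj
    have hTr : (0 : ℝ) < T := by exact_mod_cast hT
    have hnr : (0 : ℝ) < n := by exact_mod_cast hnpos
    have hmr : (0 : ℝ) < m := by exact_mod_cast hmpos
    have hRr : (0 : ℝ) < R := by
      have : (0 : ℝ) ≤ K := Nat.cast_nonneg _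
      linarith
    push_cast at hmain ⊢
    set J : ℝ := (j : ℝ)
    set n' : ℝ := (n : ℝ)
    set m' : ℝ := (m : ℝ)
    set T' : ℝ := (T : ℝ)
    set R' : ℝ := (R : ℝ)
    set ℓ : ℝ := p * (J * n' * (n' * T')) + (1 - p) * (J * (n' * T' * m')) with hℓ
    have hrel : (1 - q) * p * n' = m' * (q * (1 - p)) := by
      rw [hρ, ← hρmn]; ring
    have hqℓ : q * ℓ = p * (J * n' * (n' * T')) := by
      rw [hℓ]
      linear_combination (-(J * n' * T')) * hrel
    have h1qℓ : (1 - q) * ℓ = (1 - p) * (J * (n' * T' * m')) := by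
      have : ℓ = q * ℓ + (1 - q) * ℓ := by ring
      rw [hqℓ] at this
      rw [hℓ] at this ⊢
      linarith
    set X : ℝ := ℓ * D ^ 2 / (n' * T' * (n' * T' * m') * R' ^ 2) with hX
    have hXeq : ℓ * (J * (J * n')) * D ^ 2 / (J * (J * n') * (n' * T' * (n' * T' * m') * R' ^ 2)) = X := by
      rw [hX]; field_simp
    rw [hXeq]
    apply sq_le_sq.1
    -- σ² ≤ X²
    have hb : 0 < n' * T' * (n' * T' * m') * R' ^ 2 := by positivity
    have hX2 : X ^ 2 = ℓ ^ 2 * D ^ 4 / (n' * T' * (n' * T' * m') * R' ^ 2) ^ 2 := by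
      rw [hX, div_pow]; ring
    rw [hX2, le_div_iff₀ (by positivity)]
    have hqq0 : q * (1 - q) ≠ 0 := by
      intro h
      rw [hZ, h, mul_zero] at hpq
      exact lt_irrefl _ hpq
    have hqq2 : 0 < (q * (1 - q)) ^ 2 := by positivity
    have hkey : (q * (1 - q)) ^ 2 * (σ ^ 2 * (n' * T' * (n' * T' * m') * R' ^ 2) ^ 2)
        ≤ (q * (1 - q)) ^ 2 * (ℓ ^ 2 * D ^ 4) := by
      have e1 : (q * (1 - q)) ^ 2 * (ℓ ^ 2 * D ^ 4) =
          (q * (1 - q)) * ((q * ℓ) * ((1 - q) * ℓ)) * D ^ 4 := by ring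
      rw [e1, hqℓ, h1qℓ]
      have e2 : σ ^ 2 * (q * (1 - q)) ^ 2 = η * Z := by
        rw [hηdef]; field_simp
      have e3 : (q * (1 - q)) ^ 2 * (σ ^ 2 * (n' * T' * (n' * T' * m') * R' ^ 2) ^ 2)
          = Z * (n' ^ 3 * T' ^ 2 * m') * (η * (n' * m' * (T' * T') * R' ^ 4)) := by
        calc (q * (1 - q)) ^ 2 * (σ ^ 2 * (n' * T' * (n' * T' * m') * R' ^ 2) ^ 2)
            = (σ ^ 2 * (q * (1 - q)) ^ 2) * (n' * T' * (n' * T' * m') * R' ^ 2) ^ 2 := by ring
          _ = (η * Z) * (n' * T' * (n' * T' * m') * R' ^ 2) ^ 2 := by rw [e2]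
          _ = _ := by ring
      rw [e3]
      have e4 : (q * (1 - q)) * (p * (J * n' * (n' * T')) * ((1 - p) * (J * (n' * T' * m')))) * D ^ 4
          = Z * (n' ^ 3 * T' ^ 2 * m') * (J * J * D ^ 4) := by rw [hZ]; ring
      rw [e4]
      exact mul_le_mul_of_nonneg_left hmain (by positivity)
    exact le_of_mul_le_mul_left hkey hqq2

/-- all admissible `σ` have a design -/
theorem hasDesign_all' (p q : ℝ) (hpq : 0 < (p * (1 - p)) * (q * (1 - q))) (ρ : ℚ)
    (hρ : (1 - q) * p = ρ * (q * (1 - p))) (σ : ℝ)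
    (hσ : σ ^ 2 * (q * (1 - q)) ^ 2 < (p * (1 - p)) * (q * (1 - q))) :
    HasDesign p q σ := by
  obtain ⟨k1, k2, k3, k4, R, h1, h2, h3, h4, hR, hpq', hX⟩ := exists_params' p q hpq ρ hρ σ hσ
  have hplus := design_explicit p q k1 k2 k3 k4 R h1 h2 h3 h4 hR hpq' 1 (Or.inl rfl)
  have hminus := design_explicit p q k1 k2 k3 k4 R h1 h2 h3 h4 hR hpq' (-1) (Or.inr rfl)
  set X : ℝ := ((p * (k2 * k3) + (1 - p) * (k1 * k4)) * (min (k1 * k2) (k3 * k4) : ℕ) *
        ((R : ℝ) - (k1 + k2 + k3 + k4 : ℕ)) ^ 2) / ((k1 * k2) * ((k3 * k4) * (R : ℝ) ^ 2)) with hXdef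
  have h := abs_le.1 hX
  rcases le_total 0 X with h0 | h0
  · rw [abs_of_nonneg h0] at h
    exact hminus.convex hplus (by linarith [h.1]) (by linarith [h.2])
  · rw [abs_of_nonpos h0] at h
    exact hplus.convex hminus (by linarith [h.1]) (by linarith [h.2])

/-- core form: the lines `AC`, `BD` cut each other in the ratios `p`, `q` with `(1-q) p / (q (1-p))` rational -/
theorem subtransitive_of_ratio' {n : ℕ} (A B C D O : E n) (r p q : ℝ) (hA : dist A O = r)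
    (hB : dist B O = r) (hC : dist C O = r) (hD : dist D O = r) (hq0 : q ≠ 0) (hq1 : q ≠ 1)
    (hrel : (1 - p) • A + p • C = (1 - q) • B + q • D)
    (hAC : A ≠ C) (hBD : B ≠ D) (hAB : A ≠ B) (hBC : B ≠ C) (ρ : ℚ)
    (hρ : (1 - q) * p = ρ * (q * (1 - p))) :
    IsSubtransitive ({A, B, C, D} : Set (E n)) := by
  have hW := power_of_point' A B C D O r p q hA hB hC hD hrel
  have hU : 0 < ‖C - A‖ ^ 2 := by
    have : 0 < ‖C - A‖ := norm_pos_iff.2 (sub_ne_zero.2 hAC.symm)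
    positivity
  have hWpos : 0 < ‖D - B‖ ^ 2 := by
    have : 0 < ‖D - B‖ := norm_pos_iff.2 (sub_ne_zero.2 hBD.symm)
    positivity
  have hqq : q * (1 - q) ≠ 0 := mul_ne_zero hq0 (sub_ne_zero.2 (Ne.symm hq1))
  have hpp : p * (1 - p) ≠ 0 := by
    intro h
    rw [h, zero_mul] at hW
    exact (mul_ne_zero hqq hWpos.ne') hW.symm
  have hcs := strict_cauchy_schwarz' A B C D O r p q hA hB hC hD hpp hrel hAC hAB hBC
  set U := ‖C - A‖ ^ 2 with hUdef
  set W := ‖D - B‖ ^ 2 with hWdef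
  set S := ⟪C - A, D - B⟫ with hSdef
  have hσ : S = (S / U) * U := by field_simp
  have hqq2 : 0 < (q * (1 - q)) ^ 2 := by positivity
  have hZ : (p * (1 - p)) * (q * (1 - q)) * U = (q * (1 - q)) ^ 2 * W := by
    linear_combination (q * (1 - q)) * hW
  have hpq : 0 < (p * (1 - p)) * (q * (1 - q)) := by
    have : 0 < (p * (1 - p)) * (q * (1 - q)) * U := by rw [hZ]; positivity
    exact (pos_iff_pos_of_mul_pos this).2 hU
  refine subtransitive_of_design' A B C D p q (S / U) hqq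
    (hasDesign_all' p q hpq ρ hρ (S / U) ?_) hrel hAC hσ hW
  have h1 : S ^ 2 * (q * (1 - q)) ^ 2 < U * ((p * (1 - p)) * (q * (1 - q)) * U) := by
    rw [hZ]
    nlinarith [mul_lt_mul_of_pos_right hcs hqq2]
  rw [div_pow, div_mul_eq_mul_div, div_lt_iff₀ (by positivity)]
  nlinarith [h1]

/-- **Theorem S'.**  Four distinct points `A B C D` of a sphere such that the lines `AC`, `BD` meet, with
`|AB|² / |CD|²` rational, form a subtransitive set (`AB`, `CD`: opposite sides or the diagonals). -/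
theorem concyclic_subtransitive {n : ℕ} (A B C D O : E n) (r p q : ℝ)
    (hA : dist A O = r) (hB : dist B O = r) (hC : dist C O = r) (hD : dist D O = r)
    (hq0 : q ≠ 0) (hq1 : q ≠ 1)
    (hrel : (1 - p) • A + p • C = (1 - q) • B + q • D)
    (hAC : A ≠ C) (hBD : B ≠ D) (hAD : A ≠ D) (hCD : C ≠ D) (ρ : ℚ)
    (hρ : dist A B ^ 2 = ρ * dist C D ^ 2) :
    IsSubtransitive ({A, B, C, D} : Set (E n)) := by
  have hW := power_of_point' A B C D O r p q hA hB hC hD hrel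
  have hside := side_ratio A B C D p q hrel hW
  have hcd : 0 < dist C D ^ 2 := by
    have : 0 < dist C D := dist_pos.2 hCD
    positivity
  have hρ' : (1 - (1 - q)) * p = ρ * ((1 - q) * (1 - p)) := by
    rw [hρ] at hside
    have : ((1 - p) * (1 - q) * ρ - p * q) * dist C D ^ 2 = 0 := by linarith
    rcases mul_eq_zero.1 this with h | h
    · linarith
    · exact absurd h hcd.ne'
  have hrel' : (1 - p) • A + p • C = (1 - (1 - q)) • D + (1 - q) • B := by
    rw [hrel, add_comm]; congr 1; congr 1; ring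
  have := subtransitive_of_ratio' A D C B O r p (1 - q) hA hD hC hB
    (sub_ne_zero.2 (Ne.symm hq1)) (by intro h; apply hq0; linarith) hrel' hAC hBD.symm hAD hCD.symm
    ρ hρ'
  have hset : ({A, B, C, D} : Set (E n)) = {A, D, C, B} := by
    ext x; simp only [Set.mem_insert_iff, Set.mem_singleton_iff]; tauto
  rw [hset]; exact this

end Vale.Agent.P058.RU
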